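import Mathlib
import Vale.Agent.P058.Disproof

/-! Hand-in for P058: a Ramsey quadrilateral that is not subtransitive. -/

namespace Vale.Agent.Results.P058.RamseyNotSubtransitive

/-- There is a four-point subset of the unit circle which is Euclidean Ramsey but is not congruent
to a subset of any finite transitive set. -/
theorem result :
    ∃ A : Set (EuclideanSpace ℝ (Fin 2)), A.Finite ∧ A.Nonempty ∧ A.ncard = 4 ∧
      (∀ a ∈ A, ‖a‖ = 1) ∧ Vale.Agent.P058.IsRamsey A ∧ ¬ Vale.Agent.P058.IsSubtransitive A :=
  Vale.Agent.P058.exists_ramsey_not_subtransitive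

end Vale.Agent.Results.P058.RamseyNotSubtransitive
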