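import Mathlib
import Vale.Agent.P058.Spherical

/-! Hand-in for P058: a spherical finite planar set that is not Ramsey. -/

namespace Vale.Agent.Results.P058.SphericalNotRamsey

/-- There is a finite subset of the unit circle in the plane that is not Euclidean Ramsey. -/
theorem result :
    ∃ A : Set (EuclideanSpace ℝ (Fin 2)), A.Finite ∧ A.Nonempty ∧ (∀ a ∈ A, ‖a‖ = 1) ∧
      ¬ Vale.Agent.P058.IsRamsey A :=
  Vale.Agent.P058.exists_spherical_not_ramsey

end Vale.Agent.Results.P058.SphericalNotRamsey
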